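import Vale.Agent.P144U.SmU.Tr

/-!
The small scales of a dug tip.
-/

namespace Vale.Agent.P144Z

open Finset GeoA B5a2

namespace SmU

theorem epi_half (ν : ℂ) {κ : ℝ} (hκ : 0 ≤ κ) (a : ℝ) : Epi {v | a < ht ν v} ν κ := by
  intro u hu v hv
  have h1 := mul_nonneg hκ (len_nonneg v)
  simp only [ht, Set.mem_ofPred_eq, Prod.fst_add, Prod.snd_add] at hu hv ⊢
  push_cast
  linarith

theorem epi_triv {S : Set (ℤ × ℤ)} (h : S = Set.univ ∨ S = ∅) (ν : ℂ) (κ : ℝ) : Epi S ν κ := by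
  rcases h with rfl | rfl
  · exact fun _ _ _ _ => trivial
  · exact fun _ h => h.elim

theorem norm_self {ν : ℂ} (h : ‖ν‖ = 1) : 1 / 8 ≤ ‖ν + ν‖ := by
  rw [← two_mul, norm_mul, h]
  norm_num

theorem abs_ht (ν : ℂ) (v : ℤ × ℤ) : |ht ν v| ≤ 2 * zd v 0 * ‖ν‖ := by
  have h1 : |(v.1 : ℝ)| ≤ zd v 0 := by
    have : |v.1| ≤ zd v 0 := by simp only [zd, Int.abs_eq_natAbs, Prod.fst_zero]; omega
    exact_mod_cast this
  have h2 : |(v.2 : ℝ)| ≤ zd v 0 := by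
    have : |v.2| ≤ zd v 0 := by simp only [zd, Int.abs_eq_natAbs, Prod.snd_zero]; omega
    exact_mod_cast this
  have h3 := mul_le_mul h1 (Complex.abs_re_le_norm ν) (abs_nonneg _) (Nat.cast_nonneg _)
  have h4 := mul_le_mul h2 (Complex.abs_im_le_norm ν) (abs_nonneg _) (Nat.cast_nonneg _)
  have h5 := abs_add_le (v.1 * ν.re) (v.2 * ν.im)
  rw [abs_mul, abs_mul] at h5
  unfold ht
  linarith

theorem zd_le {u v : ℤ × ℤ} {n : ℕ} : zd u v ≤ n ↔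
    (v.1 - n ≤ u.1 ∧ u.1 ≤ v.1 + n) ∧ v.2 - n ≤ u.2 ∧ u.2 ≤ v.2 + n := by
  unfold zd
  omega

theorem zd_add (y v : ℤ × ℤ) : zd (y + v) y = zd v 0 := by simp [zd]

/-- Away from the corners the outside of the square is a half plane. -/
theorem half {c y : ℤ × ℤ} {t ρ : ℕ} {κ : ℝ} (hκ : 0 ≤ κ) (hρ : ρ ≤ t)
    (h : ∀ q, IsCr c t q → ρ < zd q y) : ∃ (S : Set (ℤ × ℤ)) (ν : ℂ), ‖ν‖ = 1 ∧ Epi S ν κ ∧
      (∀ v, zd v 0 ≤ ρ → (t < zd (y + v) c ↔ v ∈ S)) ∧ ((S = Set.univ ∨ S = ∅) ∨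
        ((t : ℝ) ≤ ht ν y + ρ + zd c 0 ∧ zd y 0 ≤ t + ρ + zd c 0)) := by
  by_cases h1 : t + ρ < zd y c
  · refine ⟨Set.univ, 1, norm_one, epi_triv (Or.inl rfl) _ _, fun v hv => iff_of_true ?_ trivial,
      Or.inl (Or.inl rfl)⟩
    have := zd_tri y (y + v) c
    rw [zd_comm y (y + v), zd_add] at this
    omega
  by_cases h2 : zd y c + ρ ≤ t
  · refine ⟨∅, 1, norm_one, epi_triv (Or.inr rfl) _ _, fun v hv => iff_of_false ?_ id,
      Or.inl (Or.inr rfl)⟩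
    have := zd_tri (y + v) y c
    rw [zd_add] at this
    omega
  have h3 : zd y 0 ≤ t + ρ + zd c 0 := by
    have := zd_tri y c 0
    omega
  have key : ∀ (ν : ℂ) (φ : ℤ × ℤ → ℤ), ‖ν‖ = 1 → (∀ w, ht ν w = φ w) →
      (∀ v, zd v 0 ≤ ρ → (t < zd (y + v) c ↔ t + φ c - φ y < φ v)) →
      (t : ℤ) ≤ φ y + ρ + zd c 0 → ∃ (S : Set (ℤ × ℤ)) (ν : ℂ), ‖ν‖ = 1 ∧ Epi S ν κ ∧
      (∀ v, zd v 0 ≤ ρ → (t < zd (y + v) c ↔ v ∈ S)) ∧ ((S = Set.univ ∨ S = ∅) ∨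
        ((t : ℝ) ≤ ht ν y + ρ + zd c 0 ∧ zd y 0 ≤ t + ρ + zd c 0)) := by
    intro ν φ n1 n2 n3 n4
    refine ⟨_, ν, n1, epi_half ν hκ (t + φ c - φ y), fun v hv => (n3 v hv).trans ?_,
      Or.inr ⟨?_, h3⟩⟩
    · rw [Set.mem_ofPred_eq, n2]
      norm_cast
    · rw [n2]
      exact_mod_cast n4
  have c1 := mt zd_le.2 (h (c.1 + t, c.2 + t) ⟨by simp, by simp⟩).not_ge
  have c2 := mt zd_le.2 (h (c.1 + t, c.2 - t) ⟨by simp, by simp⟩).not_ge
  have c3 := mt zd_le.2 (h (c.1 - t, c.2 + t) ⟨by simp, by simp⟩).not_ge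
  have c4 := mt zd_le.2 (h (c.1 - t, c.2 - t) ⟨by simp, by simp⟩).not_ge
  have c5 := zd_le.1 (le_refl (zd c 0))
  have c6 := zd_le.1 (not_lt.1 h1)
  have c7 := mt zd_le.2 (show ¬ zd y c ≤ t - ρ by omega)
  have c8 : ∀ v, t < zd (y + v) c ↔ ¬ ((c.1 - t ≤ y.1 + v.1 ∧ y.1 + v.1 ≤ c.1 + t) ∧
      c.2 - t ≤ y.2 + v.2 ∧ y.2 + v.2 ≤ c.2 + t) := fun v => not_le.symm.trans zd_le.not
  clear h h1 h2 h3
  simp only [Prod.fst_zero, Prod.snd_zero] at c1 c2 c3 c4 c5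
  by_cases h4 : c.2 - t + ρ < y.2 ∧ y.2 + ρ < c.2 + t
  · clear c1 c2 c3 c4
    rcases le_total c.1 y.1 with h5 | h5
    · refine key 1 (fun w => w.1) norm_one (fun w => by simp [ht]) (fun v hv => ?_) (by omega)
      rw [c8]
      simp only [zd_le, Prod.fst_zero, Prod.snd_zero] at hv
      omega
    · refine key (-1) (fun w => -w.1) (by simp) (fun w => by simp [ht]) (fun v hv => ?_) (by omega)
      rw [c8]
      simp only [zd_le, Prod.fst_zero, Prod.snd_zero] at hv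
      omega
  · have h6 : c.1 - t + ρ < y.1 ∧ y.1 + ρ < c.1 + t := by omega
    clear c1 c2 c3 c4
    rcases le_total c.2 y.2 with h5 | h5
    · refine key Complex.I (fun w => w.2) (by simp) (fun w => by simp [ht]) (fun v hv => ?_)
        (by omega)
      rw [c8]
      simp only [zd_le, Prod.fst_zero, Prod.snd_zero] at hv
      omega
    · refine key (-Complex.I) (fun w => -w.2) (by simp) (fun w => by simp [ht]) (fun v hv => ?_)
        (by omega)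
      rw [c8]
      simp only [zd_le, Prod.fst_zero, Prod.snd_zero] at hv
      omega

end SmU

open SmU in
/-- At small scales a dug tip is a wide convex corner or the outside of the square. -/
theorem smallU_of (hF : FarU) : SmallU := by
  intro α hα
  obtain ⟨N, κ₁, hκ₁, hF⟩ := hF α hα
  refine ⟨4 * N + 200, min κ₁ (1 / 400), by positivity,
    fun κ hκ hκ' un S₁ S₂ ν₁ ν₂ c t hS hc y ρ ht' => ?_⟩
  obtain ⟨k1, k2⟩ := le_min_iff.1 hκ'
  have h0 := hc.1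
  rw [add_mul, mul_assoc] at ht'
  by_cases h1 : 4 * zd y 0 < t
  · refine Or.inr fun v hv => ⟨fun k => k.2, fun k => absurd k ?_⟩
    have e1 := zd_tri (y + v) y c
    have e2 := zd_tri y 0 c
    rw [zd_add] at e1
    rw [zd_comm 0 c] at e2
    omega
  obtain ⟨S, ν, a1, a2, a3, a4⟩ := hF κ hκ k1 un S₁ S₂ ν₁ ν₂ hS y ρ (by omega)
  have a0 : ‖ν‖ = 1 := by
    rcases a1 with rfl | rfl
    · exact hS.n₁
    · exact hS.n₂
  have r1 : 200 * ((ρ : ℝ) + 1) ≤ t := by exact_mod_cast (by omega : 200 * (ρ + 1) ≤ t)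
  have r2 : 2 * (zd c 0 : ℝ) ≤ t := by exact_mod_cast h0
  have r3 : (0 : ℝ) ≤ ρ := Nat.cast_nonneg ρ
  have r4 : zd y 0 ≤ t + ρ + zd c 0 → (zd y 0 : ℝ) ≤ t + ρ + zd c 0 ∧
      2 * κ * zd y 0 ≤ t / 100 := fun k => by
    have k' : (zd y 0 : ℝ) ≤ t + ρ + zd c 0 := by exact_mod_cast k
    have := mul_le_mul k2 (show (zd y 0 : ℝ) ≤ 2 * t by linarith) (Nat.cast_nonneg _) (by norm_num)
    exact ⟨k', by linarith⟩
  by_cases h2 : ∀ q, IsCr c t q → ρ < zd q y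
  · obtain ⟨S', ν', b1, b2, b3, b4⟩ := half hκ (by omega) h2
    have e : ∀ v, zd v 0 ≤ ρ → (y + v ∈ DugU un S₁ S₂ c t ↔ v ∈ S ∧ v ∈ S') := fun v hv =>
      and_congr (a4 v hv) (b3 v hv)
    left
    rcases b4 with b4 | ⟨b4, b5⟩
    · exact ⟨S, S', ν, ν, a0, a0, norm_self a0, a2, epi_triv b4 _ _, e⟩
    rcases or_assoc.2 a3 with a3 | a3
    · exact ⟨S, S', ν', ν', b1, b1, norm_self b1, epi_triv a3 _ _, b2, e⟩
    refine ⟨S, S', ν, ν', a0, b1, not_lt.1 fun k => ?_, a2, b2, e⟩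
    obtain ⟨c1, c2⟩ := r4 b5
    have c3 := (le_abs_self _).trans (abs_ht (ν + ν') y)
    have c4 := mul_le_mul_of_nonneg_left k.le (show 0 ≤ 2 * (zd y 0 : ℝ) by positivity)
    have c5 : ht (ν + ν') y = ht ν y + ht ν' y := by
      simp only [ht, Complex.add_re, Complex.add_im]; ring
    have c6 := neg_abs_le (ht ν y)
    linarith
  push Not at h2
  obtain ⟨q, q1, q2⟩ := h2
  rcases a3 with rfl | rfl | a3
  · exact Or.inr fun v hv => and_iff_right ((a4 v hv).2 trivial)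
  · exact Or.inl ⟨∅, ∅, ν, ν, a0, a0, norm_self a0, a2, a2, fun v hv =>
      iff_of_false (fun k => (a4 v hv).1 k.1) fun k => k.1⟩
  exfalso
  have c0 : (t : ℝ) ≤ 20 * |ht ν q| := by
    rcases a1 with rfl | rfl
    · exact (hc.2 q q1).1
    · exact (hc.2 q q1).2
  obtain ⟨-, c2⟩ := r4 (by
    have e1 := zd_tri y q 0
    have e2 := zd_tri q c 0
    have e3 : zd q c = t := by rw [zd, q1.1, q1.2, max_self]
    rw [zd_comm y q] at e1
    omega)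
  have c3 := abs_ht ν (q - y)
  have c4 : (zd (q - y) 0 : ℝ) ≤ ρ := by
    exact_mod_cast (show zd (q - y) 0 ≤ ρ by simpa [zd] using q2)
  have c5 : ht ν q = ht ν y + ht ν (q - y) := by
    simp only [ht, Prod.fst_sub, Prod.snd_sub]; push_cast; ring
  have c6 := abs_add_le (ht ν y) (ht ν (q - y))
  rw [← c5] at c6
  rw [a0] at c3
  linarith

end Vale.Agent.P144Z
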