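import Vale.Agent.P144U.SmU.Small

/-!
The small scales of the dug sets on the torus.
-/

namespace Vale.Agent.P144Z

open Finset GeoA B5a2

namespace SmU

theorem rch_of_pc {G : ℤ × ℤ → Prop} {u w : ℤ × ℤ} (h : PC G u w) : Rch G u w := by
  refine Relation.ReflTransGen.mono (fun a b k => ⟨k.1, k.2.1, ?_⟩) _ _ h
  rcases k.2.2 with e | e | e | e
  · exact Or.inl e
  · exact Or.inr (Or.inl e)
  · exact Or.inr (Or.inr (Or.inl (by rw [e]; ext <;> simp)))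
  · exact Or.inr (Or.inr (Or.inr (by rw [e]; ext <;> simp)))

theorem rch_sq {c y f f' : ℤ × ℤ} {t s n : ℕ} (hn : s ≤ n) (h1 : zd f y ≤ s) (h2 : zd f' y ≤ s)
    (h3 : ¬ t < zd f c) (h4 : ¬ t < zd f' c) :
    Rch (fun v => v ∉ {u | t < zd u c} ∧ zd v y ≤ n) f f' := by
  obtain ⟨a, b⟩ := f
  obtain ⟨a', b'⟩ := f'
  refine rch_of_pc ((pc_row b a a' fun j _ _ => ?_).trans (pc_col a' b b' fun j _ _ => ?_)) <;>
    simp only [Set.mem_ofPred_eq, not_lt, zd_le] at * <;> omega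

theorem deep_sq {c y : ℤ × ℤ} {t s : ℕ} (hs : 2 * s ≤ t) (h : ¬ t < zd y c) :
    ∃ x, zd x y ≤ s ∧ ∀ g, zd g x ≤ s → g ∉ {u | t < zd u c} := by
  refine ⟨(if c.1 ≤ y.1 then y.1 - s else y.1 + s, if c.2 ≤ y.2 then y.2 - s else y.2 + s), ?_,
    fun g hg => ?_⟩ <;> simp only [Set.mem_ofPred_eq, not_lt, zd_le] at * <;> split_ifs at * <;> omega

end SmU

open SmU Ge3 in
/-- The small scales. -/
theorem smallW_of (hS : SmallU) : SmallW := by
  obtain ⟨C, -, hc⟩ := conn_of_shape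
  refine ⟨8 * C + 50, fun α hα => ?_⟩
  obtain ⟨K₁, κ₁, hκ₁, hS⟩ := hS α hα
  refine ⟨K₁ + 2, min κ₁ (1 / 128), by positivity,
    fun κ hκ hκ' M _ I Tp Tc t R r₀ h hT ht hR hM => ?_⟩
  obtain ⟨k1, k2⟩ := le_min_iff.1 hκ'
  have k3 : κ ≤ 1 / 8 := by linarith
  rw [add_mul] at ht
  have hl : ∀ y, ShapeAt I (1 / 8) κ r₀ y ∨ ∃ y₀ c : ℤ × ℤ,
      (∀ q, IsCr c t q → zd q y₀ ≤ R → y + prj M (q - y₀) ∈ Tc) ∧
      ∀ v, zd v 0 ≤ r₀ → (y + prj M v ∈ I ↔ y₀ + v ∈ {u | t < zd u c}) := by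
    intro y
    rcases h y with ⟨S₁, S₂, ν₁, ν₂, a1, a2, a3, a4, a5, a6⟩ |
      ⟨p, -, y₀, c, un, S₁, S₂, ν₁, ν₂, -, a1, a2, a3, a4⟩
    · exact Or.inl ⟨S₁, S₂, ν₁, ν₂, a1, a2, by linarith, a4, a5, fun v hv => a6 v (by omega)⟩
    rcases hS κ hκ.le k1 un S₁ S₂ ν₁ ν₂ c t a1.1 a2 y₀ r₀ (by omega) with
      ⟨S, S', ν, ν', b1, b2, b3, b4, b5, b6⟩ | b
    · exact Or.inl ⟨S, S', ν, ν', b1, b2, b3, b4, b5, fun v hv => (a4 v (by omega)).trans (b6 v hv)⟩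
    · exact Or.inr ⟨y₀, c, a3, fun v hv => (a4 v (by omega)).trans (b v hv)⟩
  have hm : ∀ s : ℕ, 50 * (s + 1) ≤ (8 * C + 50) * (s + 1) := fun s =>
    Nat.mul_le_mul_right _ (by omega)
  refine ⟨⟨fun y s hs => ?_, fun f hf s hs => ?_, fun y => ?_⟩,
    fun p hp p' hp' e => lt_of_le_of_lt (by omega) (hT p hp p' hp' e), fun y ρ hρ hy => ?_⟩
  · have h2 := hm s
    rcases hl y with h1 | ⟨y₀, c, -, h1⟩
    · refine hc M _ _ κ _ y h1 (by norm_num) (by linarith) (by omega) s _ ?_ hs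
      have h3 : (0 : ℝ) ≤ s := Nat.cast_nonneg s
      push_cast
      linarith
    · exact conn_tip h1 (by omega) hs fun f f' => rch_sq (by omega)
  · have h2 := hm s
    rcases hl f with h1 | ⟨y₀, c, -, h1⟩
    · obtain ⟨x, x1, x2⟩ := cork_shape (h1.mono k3 le_rfl) hf (s := s) (by omega)
      exact ⟨x, by omega, x2⟩
    · have h3 : ¬ t < zd y₀ c := fun k => hf (by
        have := (h1 0 (by simp [zd])).2 (by rwa [add_zero])
        rwa [G.prj_zero, add_zero] at this)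
      obtain ⟨x, x1, x2⟩ := deep_sq (s := s) (by omega) h3
      obtain ⟨x', x3, x4⟩ := cork_tip h1 (by omega) x1 x2
      exact ⟨x', by omega, x4⟩
  · rcases h y with h1 | ⟨p, -, y₀, c, un, S₁, S₂, ν₁, ν₂, -, a1, -, -, a4⟩
    · exact (tr_of_shape (h1.mono k3 le_rfl) (by omega) (ρ := r₀) (by omega)).mono' le_rfl
        (by omega)
    · exact (trU (a1.1.mono k3) a4 (ρ := r₀) (by omega)).mono' le_rfl (by omega)
  · rcases hl y with h1 | ⟨y₀, c, h0, h1⟩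
    · exact h1.mono le_rfl hρ
    have h2 := hm ρ
    obtain ⟨S, ν, b1, b2, b3, -⟩ := half (c := c) (y := y₀) (t := t) (ρ := ρ) hκ.le (by omega)
      fun q hq => not_le.1 fun k => by
        have h3 := hy _ (h0 q hq (by omega))
        have h4 := tdist_le_zd y (q - y₀)
        have h5 : zd (q - y₀) 0 = zd q y₀ := by simp [zd]
        rw [tdist_comm] at h3
        omega
    exact ⟨S, S, ν, ν, b1, b1, norm_self b1, b2, b2, fun v hv =>
      ((h1 v (hv.trans hρ)).trans (b3 v hv)).trans (and_self_iff).symm⟩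

end Vale.Agent.P144Z
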