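import Vale.Agent.P144U.Defs
import Vale.Agent.P144E.Ge3.Dig

/-!
The trace property of a dug tip, with a universal constant.
-/

namespace Vale.Agent.P144Z

open Finset GeoA B5a2

variable {M : ℕ} [NeZero M]

namespace SmU

theorem strip_row (y : Tor M) (a : ℤ) : ∃ H : Finset (Tor M),
    (∀ x, ((lft (x - y)).1 - a).natAbs ≤ 2 → x ∈ H) ∧
      ∀ u, (H.filter fun x => x.2 = u).card ≤ 10 := by
  refine ⟨univ.filter fun x => ((lft (x - y)).1 - a).natAbs ≤ 2,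
    fun x hx => mem_filter.2 ⟨mem_univ _, hx⟩, fun u => card_le_ten _ (fun x => (lft (x - y)).1)
      (fun x hx x' hx' e => Prod.ext (sub_left_injective (ZMod.valMinAbs_inj.1 e))
        ((mem_filter.1 hx).2.trans (mem_filter.1 hx').2.symm)) fun x hx x' hx' => ?_⟩
  have h1 := (mem_filter.1 (mem_filter.1 hx).1).2
  have h2 := (mem_filter.1 (mem_filter.1 hx').1).2
  omega

theorem strip_col (y : Tor M) (a : ℤ) : ∃ H : Finset (Tor M),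
    (∀ x, ((lft (x - y)).2 - a).natAbs ≤ 2 → x ∈ H) ∧
      ∀ u, (H.filter fun x => x.1 = u).card ≤ 10 := by
  refine ⟨univ.filter fun x => ((lft (x - y)).2 - a).natAbs ≤ 2,
    fun x hx => mem_filter.2 ⟨mem_univ _, hx⟩, fun u => card_le_ten _ (fun x => (lft (x - y)).2)
      (fun x hx x' hx' e => Prod.ext ((mem_filter.1 hx).2.trans (mem_filter.1 hx').2.symm)
        (sub_left_injective (ZMod.valMinAbs_inj.1 e))) fun x hx x' hx' => ?_⟩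
  have h1 := (mem_filter.1 (mem_filter.1 hx).1).2
  have h2 := (mem_filter.1 (mem_filter.1 hx').1).2
  omega

omit [NeZero M] in
theorem card_four (A B C D : Finset (Tor M)) (p : Tor M → Prop) [DecidablePred p]
    (hA : (A.filter p).card ≤ 10) (hB : (B.filter p).card ≤ 10) (hC : (C.filter p).card ≤ 10)
    (hD : (D.filter p).card ≤ 10) : (((A ∪ B) ∪ (C ∪ D)).filter p).card ≤ 50 := by
  rw [filter_union, filter_union, filter_union]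
  have := card_union_le (A.filter p ∪ B.filter p) (C.filter p ∪ D.filter p)
  have := card_union_le (A.filter p) (B.filter p)
  have := card_union_le (C.filter p) (D.filter p)
  omega

theorem near_side {y c w w' x : ℤ × ℤ} {t : ℕ} (h1 : t < zd (y + w) c) (h2 : ¬ t < zd (y + w') c)
    (h3 : zd w x ≤ 2) (h4 : zd w' x ≤ 2) :
    (x.1 - (c.1 - y.1 + t)).natAbs ≤ 2 ∨ (x.1 - (c.1 - y.1 - t)).natAbs ≤ 2 ∨
      (x.2 - (c.2 - y.2 + t)).natAbs ≤ 2 ∨ (x.2 - (c.2 - y.2 - t)).natAbs ≤ 2 := by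
  simp only [zd, Prod.fst_add, Prod.snd_add, lt_max_iff, not_or, max_le_iff] at h1 h2 h3 h4
  obtain ⟨a1, a2⟩ := h2
  obtain ⟨b1, b2⟩ := h3
  obtain ⟨c1, c2⟩ := h4
  rcases h1 with h1 | h1
  · refine or_assoc.1 (Or.inl ?_)
    clear a2 b2 c2
    omega
  · refine Or.inr (Or.inr ?_)
    clear a1 b1 c1
    omega

end SmU

open SmU in
/-- The trace property of a dug tip. -/
theorem trU {I : Finset (Tor M)} {y : Tor M} {y₀ c : ℤ × ℤ} {un : Bool} {S₁ S₂ : Set (ℤ × ℤ)}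
    {ν₁ ν₂ : ℂ} {α : ℝ} {t R ρ : ℕ} (hS : TipS S₁ S₂ ν₁ ν₂ α (1 / 8))
    (hI : ∀ v, zd v 0 ≤ R → (y + prj M v ∈ I ↔ y₀ + v ∈ DugU un S₁ S₂ c t)) (hρ : ρ + 2 ≤ R) :
    TrB I y ρ 50 := by
  obtain ⟨H₁, V₁, a1, b1, c1⟩ := tr_one hS.n₁ (Ge3.epi_shift hS.e₁ y₀) y
  obtain ⟨H₂, V₂, a2, b2, c2⟩ := tr_one hS.n₂ (Ge3.epi_shift hS.e₂ y₀) y
  obtain ⟨H₃, a3, b3⟩ := strip_row y (c.1 - y₀.1 + t)
  obtain ⟨H₄, a4, b4⟩ := strip_row y (c.1 - y₀.1 - t)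
  obtain ⟨V₃, a5, c3⟩ := strip_col y (c.2 - y₀.2 + t)
  obtain ⟨V₄, a6, c4⟩ := strip_col y (c.2 - y₀.2 - t)
  refine ⟨(H₁ ∪ H₂) ∪ (H₃ ∪ H₄), (V₁ ∪ V₂) ∪ (V₃ ∪ V₄), fun x hx hn => ?_,
    fun u => card_four _ _ _ _ _ (b1 u) (b2 u) (b3 u) (b4 u),
    fun u => card_four _ _ _ _ _ (c1 u) (c2 u) (c3 u) (c4 u)⟩
  obtain ⟨⟨f, hf, hfx⟩, f', hf', hfx'⟩ := hn
  obtain ⟨w, rfl, w1, w2⟩ := exists_rep y x f
  obtain ⟨w', rfl, w1', w2'⟩ := exists_rep y x f'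
  have h1 := (hI w (by omega)).1 hf
  have h2 := mt (hI w' (by omega)).2 hf'
  have k1 : y₀ + w ∈ S₁ → y₀ + w' ∉ S₁ → x ∈ H₁ ∨ x ∈ V₁ := fun p q =>
    a1 x ⟨⟨w, p, w1 ▸ hfx⟩, w', q, w1' ▸ hfx'⟩
  have k2 : y₀ + w ∈ S₂ → y₀ + w' ∉ S₂ → x ∈ H₂ ∨ x ∈ V₂ := fun p q =>
    a2 x ⟨⟨w, p, w1 ▸ hfx⟩, w', q, w1' ▸ hfx'⟩
  simp only [mem_union]
  rcases not_and_or.1 h2 with h2 | h2
  · have h3 := h1.1
    cases un <;> simp only [Two, Set.mem_ofPred_eq, if_true, Bool.false_eq_true, if_false] at h2 h3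
      <;> tauto
  · rw [← w1] at hfx
    rw [← w1'] at hfx'
    rcases near_side h1.2 h2 hfx hfx' with k | k | k | k
    · exact Or.inl (Or.inr (Or.inl (a3 x k)))
    · exact Or.inl (Or.inr (Or.inr (a4 x k)))
    · exact Or.inr (Or.inr (Or.inl (a5 x k)))
    · exact Or.inr (Or.inr (Or.inr (a6 x k)))

end Vale.Agent.P144Z
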